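import Mathlib
import Vale.Agent.P116.H906.Nodes

/-!
# The frontiers of the nodes are null sets
-/

open Set Filter Topology Metric MeasureTheory Bornology
open scoped ENNReal NNReal Real

namespace Vale.Agent.P116.Cl.H779

open H906

/-- the points at distance exactly `r` from a compact set form a null set -/
theorem null_infDist {K : Set ℂ} (hK : IsCompact K) (hne : K.Nonempty) {r : ℝ} (hr : 0 < r) :
    volume {z : ℂ | infDist z K = r} = 0 := by
  set T : Set ℂ := {z : ℂ | infDist z K = r} with hT
  have hTm : MeasurableSet T := (isClosed_eq (continuous_infDist_pt K) continuous_const).measurableSet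
  have h1 := Besicovitch.ae_tendsto_measure_inter_div (volume : Measure ℂ) T
  rw [ae_restrict_iff' hTm] at h1
  have h2 : ∀ᵐ z : ℂ, z ∉ T := by
    filter_upwards [h1] with z hz hzT
    have hlim := hz hzT
    obtain ⟨x, hx, hxz⟩ := hK.exists_infDist_eq_dist hne z
    have hdz : dist z x = r := by rw [← hxz]; exact hzT
    -- for small radii the ratio is at most 3/4
    have h3 : ∀ᶠ δ in 𝓝[>] (0:ℝ), volume (T ∩ closedBall z δ) / volume (closedBall z δ) ≤
        ENNReal.ofReal (3 / 4) := by
      have h4 : ∀ᶠ δ in 𝓝[>] (0:ℝ), δ < r := mem_nhdsWithin_of_mem_nhds (Iio_mem_nhds hr)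
      filter_upwards [h4, self_mem_nhdsWithin] with δ hδr hδ0
      have hδ : 0 < δ := hδ0
      set z' : ℂ := z + ((δ / (2 * r) : ℝ) : ℂ) * (x - z) with hz'
      have hn : ‖x - z‖ = r := by rw [← dist_eq_norm, dist_comm]; exact hdz
      have e1 : dist z' z = δ / 2 := by
        rw [dist_eq_norm, hz', add_sub_cancel_left, norm_mul, Complex.norm_real, hn,
          Real.norm_of_nonneg (by positivity)]
        field_simp
      have e2 : dist z' x = r - δ / 2 := by
        have : z' - x = ((1 - δ / (2 * r) : ℝ) : ℂ) * (z - x) := by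
          rw [hz']; push_cast; ring
        rw [dist_eq_norm, this, norm_mul, Complex.norm_real, ← dist_eq_norm z x, hdz,
          Real.norm_of_nonneg (by
            rw [sub_nonneg, div_le_one (by positivity)]; linarith)]
        field_simp
      have hsub : ball z' (δ / 2) ⊆ closedBall z δ := by
        intro y hy
        rw [mem_ball] at hy
        rw [mem_closedBall]
        linarith [dist_triangle y z' z]
      have hdis : Disjoint (ball z' (δ / 2)) T := by
        rw [disjoint_left]
        intro y hy hyT
        rw [mem_ball] at hy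
        have h5 : infDist y K ≤ dist y x := infDist_le_dist_of_mem hx
        have h6 : infDist y K = r := hyT
        linarith [dist_triangle y z' x]
      have hvol : volume (T ∩ closedBall z δ) + volume (ball z' (δ / 2)) ≤ volume (closedBall z δ) := by
        rw [← measure_union (hdis.symm.mono_left inter_subset_left) measurableSet_ball]
        exact measure_mono (union_subset inter_subset_right hsub)
      rw [Complex.volume_ball, Complex.volume_closedBall] at hvol
      rw [Complex.volume_closedBall]
      have hπ0 : (NNReal.pi : ℝ≥0∞) ≠ 0 := by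
        simp [NNReal.pi_ne_zero]
      have hπ1 : (NNReal.pi : ℝ≥0∞) ≠ ∞ := ENNReal.coe_ne_top
      have e3 : ENNReal.ofReal δ ^ 2 * (NNReal.pi : ℝ≥0∞) = ENNReal.ofReal (δ ^ 2 * π) := by
        rw [ENNReal.ofReal_mul (by positivity), ENNReal.ofReal_pow hδ.le, ← NNReal.coe_real_pi,
          ENNReal.ofReal_coe_nnreal]
      have e4 : ENNReal.ofReal (δ / 2) ^ 2 * (NNReal.pi : ℝ≥0∞) = ENNReal.ofReal ((δ / 2) ^ 2 * π) := by
        rw [ENNReal.ofReal_mul (by positivity), ENNReal.ofReal_pow (by positivity),
          ← NNReal.coe_real_pi, ENNReal.ofReal_coe_nnreal]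
      rw [e3, e4] at hvol
      rw [e3]
      have hle : volume (T ∩ closedBall z δ) ≤ ENNReal.ofReal (3 / 4 * (δ ^ 2 * π)) := by
        have h7 : volume (T ∩ closedBall z δ) ≤ ENNReal.ofReal (δ ^ 2 * π) -
            ENNReal.ofReal ((δ / 2) ^ 2 * π) := ENNReal.le_sub_of_add_le_right
              ENNReal.ofReal_ne_top hvol
        refine h7.trans (le_of_eq ?_)
        rw [← ENNReal.ofReal_sub _ (by positivity)]
        congr 1
        ring
      rw [ENNReal.div_le_iff_le_mul (Or.inl (by simp; positivity)) (Or.inl ENNReal.ofReal_ne_top),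
        ← ENNReal.ofReal_mul (by norm_num)]
      exact hle
    have h5 := le_of_tendsto hlim h3
    have h6 : ENNReal.ofReal (3 / 4) < 1 := by
      rw [ENNReal.ofReal_lt_one]; norm_num
    exact absurd h5 (not_le.2 h6)
  rwa [ae_iff, show {z | ¬ z ∉ T} = T by ext; simp] at h2

variable {K : Set ℂ}

/-- the frontier of a node consists of points at distance exactly `lr n` -/
lemma frontier_nd_sub (hK : IsCompact K) {n : ℕ} {y : ℂ} (hy : y ∈ K) :
    frontier (nd K n y) ⊆ {z | infDist z K = lr n} := by
  intro z hz
  have hcl : IsClosed (nd K n y) := (isCompact_nd hK n y).isClosed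
  have hzn : z ∈ nd K n y := by
    rw [hcl.frontier_eq] at hz; exact hz.1
  have hint : z ∉ interior (nd K n y) := by
    rw [hcl.frontier_eq] at hz; exact hz.2
  have hne : K.Nonempty := ⟨y, hy⟩
  rcases lt_trichotomy (infDist z K) (lr n) with h | h | h
  · exfalso
    obtain ⟨x, hx, hxz⟩ := hK.exists_infDist_eq_dist hne z
    have h1 : ball x (lr n) ⊆ nd K n y := by
      refine ball_subset_closedBall.trans ?_
      have hzx : z ∈ nd K n x := closedBall_subset_nd hx (mem_nd hx n)
        (by rw [mem_closedBall, ← hxz]; exact h.le)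
      have : nd K n y = nd K n x := (nd_eq hzn).symm.trans (nd_eq hzx)
      rw [this]
      exact closedBall_subset_nd hx (mem_nd hx n)
    exact hint (mem_interior.2 ⟨ball x (lr n), h1, isOpen_ball, by rw [mem_ball, ← hxz]; exact h⟩)
  · exact h
  · exfalso
    have hzA : z ∉ cthickening (lr n) K := by
      rw [mem_cthickening_iff, not_le]
      have h0 : infEDist z K ≠ ⊤ := infEDist_ne_top hne
      rw [infDist] at h
      exact (ENNReal.ofReal_lt_iff_lt_toReal (lr_pos n).le h0).2 h
    have hzl : z ∈ lev K n := nd_subset n y hzn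
    set V := connectedComponentIn (cthickening (lr n) K)ᶜ z with hV
    have hzV : z ∈ V := mem_connectedComponentIn hzA
    have hVA : V ⊆ (cthickening (lr n) K)ᶜ := connectedComponentIn_subset _ _
    have hVo : IsOpen V := (isClosed_cthickening.isOpen_compl).connectedComponentIn
    have hVl : V ⊆ lev K n := by
      intro w hw hesc
      obtain ⟨D, h1, hwD, hd, h2⟩ := hesc
      refine hzl ⟨V ∪ D, isPreconnected_connectedComponentIn.union w hw hwD h1, Or.inl hzV, ?_, ?_⟩
      · exact Disjoint.union_left (disjoint_left.2 fun v hv => hVA hv) hd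
      · exact fun h => h2 (h.subset subset_union_right)
    have hVn : V ⊆ nd K n y := by
      rw [← nd_eq hzn]
      exact isPreconnected_connectedComponentIn.subset_connectedComponentIn hzV hVl
    exact hint (mem_interior.2 ⟨V, hVn, hVo, hzV⟩)

/-- the frontiers of the nodes are null sets -/
theorem null_frontier_nd (hK : IsCompact K) (n : ℕ) {y : ℂ} (hy : y ∈ K) :
    volume (frontier (nd K n y)) = 0 :=
  measure_mono_null (frontier_nd_sub hK hy) (null_infDist hK ⟨y, hy⟩ (lr_pos n))

end Vale.Agent.P116.Cl.H779
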