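import Mathlib
import Vale.Agent.P116.Cl.H779.Null

/-!
# The part of a node without the nodes of finitely many ends

`DF K w F m`: union of the nodes of level `m` inside `w` which do not meet `F`.
-/

open Set Filter Topology Metric MeasureTheory Bornology
open scoped ENNReal NNReal Real

namespace Vale.Agent.P116.Cl.H779

open H906

variable {K w F : Set ℂ}

/-- union of the nodes of level `m` with a point in `w` which do not meet `F` -/
def DF (K w F : Set ℂ) (m : ℕ) : Set ℂ :=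
  ⋃ Q ∈ {Q | ∃ x ∈ K ∩ w, Q = nd K m x ∧ Disjoint (nd K m x) F}, Q

lemma mem_DF {m : ℕ} {z : ℂ} :
    z ∈ DF K w F m ↔ ∃ x ∈ K ∩ w, Disjoint (nd K m x) F ∧ z ∈ nd K m x := by
  unfold DF
  simp only [mem_iUnion, mem_ofPred_eq]
  constructor
  · rintro ⟨Q, ⟨x, hx, rfl, hd⟩, hz⟩
    exact ⟨x, hx, hd, hz⟩
  · rintro ⟨x, hx, hd, hz⟩
    exact ⟨_, ⟨x, hx, rfl, hd⟩, hz⟩

lemma finite_DF (hK : IsCompact K) (m : ℕ) :
    {Q | ∃ x ∈ K ∩ w, Q = nd K m x ∧ Disjoint (nd K m x) F}.Finite := by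
  refine (finite_nodes hK m).subset ?_
  rintro _ ⟨x, hx, rfl, -⟩
  exact ⟨x, hx.1, rfl⟩

lemma isCompact_DF (hK : IsCompact K) (m : ℕ) : IsCompact (DF K w F m) := by
  refine (finite_DF hK m).isCompact_biUnion ?_
  rintro _ ⟨x, -, rfl, -⟩
  exact isCompact_nd hK m x

lemma measurableSet_DF (hK : IsCompact K) (m : ℕ) : MeasurableSet (DF K w F m) :=
  (isCompact_DF hK m).measurableSet

lemma DF_sub_lev (m : ℕ) : DF K w F m ⊆ lev K m := by
  intro z hz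
  obtain ⟨x, -, -, hz⟩ := mem_DF.1 hz
  exact nd_subset m x hz

/-- `w` is a node of level at most `m` -/
lemma DF_sub {n₀ m : ℕ} (hm : n₀ ≤ m) {y₀ : ℂ} : DF K (nd K n₀ y₀) F m ⊆ nd K n₀ y₀ := by
  intro z hz
  obtain ⟨x, hx, -, hz⟩ := mem_DF.1 hz
  rw [← nd_eq hx.2]
  exact nd_anti hm hz

lemma frontier_DF_sub (hK : IsCompact K) (m : ℕ) :
    frontier (DF K w F m) ⊆ ⋃ Q ∈ {Q | ∃ x ∈ K ∩ w, Q = nd K m x ∧ Disjoint (nd K m x) F},
      frontier Q := by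
  intro z hz
  have hcl := (isCompact_DF (w := w) (F := F) hK m).isClosed
  rw [hcl.frontier_eq] at hz
  obtain ⟨x, hx, hd, hzx⟩ := mem_DF.1 hz.1
  refine mem_iUnion₂.2 ⟨nd K m x, ⟨x, hx, rfl, hd⟩, subset_closure hzx, fun hint => hz.2 ?_⟩
  exact interior_mono (fun v hv => mem_DF.2 ⟨x, hx, hd, hv⟩) hint

lemma frontier_DF_disjoint (hK : IsCompact K) (m : ℕ) : Disjoint (frontier (DF K w F m)) K := by
  refine Disjoint.mono_left (frontier_DF_sub hK m) ?_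
  rw [disjoint_left]
  intro z hz
  obtain ⟨_, ⟨x, -, rfl, -⟩, hz⟩ := mem_iUnion₂.1 hz
  exact disjoint_left.1 (frontier_nd_disjoint m x) hz

lemma null_frontier_DF (hK : IsCompact K) (m : ℕ) : volume (frontier (DF K w F m)) = 0 := by
  refine measure_mono_null (frontier_DF_sub hK m) ?_
  rw [measure_biUnion_null_iff (finite_DF hK m).countable]
  rintro _ ⟨x, hx, rfl, -⟩
  exact null_frontier_nd hK m hx.1

lemma mem_DF_iff {m : ℕ} {x : ℂ} (hx : x ∈ K) {n₀ : ℕ} (hm : n₀ ≤ m) {y₀ : ℂ} :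
    x ∈ DF K (nd K n₀ y₀) F m ↔ x ∈ nd K n₀ y₀ ∧ Disjoint (nd K m x) F := by
  rw [mem_DF]
  constructor
  · rintro ⟨y, hy, hd, hxy⟩
    rw [← nd_eq hxy] at hd
    refine ⟨?_, hd⟩
    rw [← nd_eq hy.2]
    exact nd_anti hm hxy
  · rintro ⟨h1, h2⟩
    exact ⟨x, ⟨hx, h1⟩, h2, mem_nd hx m⟩

/-- on `K` the sets increase -/
lemma DF_mono {n₀ m m' : ℕ} (hm : n₀ ≤ m) (hmm : m ≤ m') {y₀ : ℂ} :
    K ∩ DF K (nd K n₀ y₀) F m ⊆ K ∩ DF K (nd K n₀ y₀) F m' := by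
  rintro x ⟨hx, h⟩
  rw [mem_DF_iff hx hm] at h
  exact ⟨hx, (mem_DF_iff hx (hm.trans hmm)).2 ⟨h.1, h.2.mono_left (nd_anti hmm)⟩⟩

/-- every end of `w` which is not an end of a point of the finite set `F` is in one of the sets -/
lemma exists_mem_DF (hK : IsCompact K) (hf : Full K) (hF : F.Finite) {x : ℂ} (hx : x ∈ K)
    (hxF : ∀ p ∈ F, p ∉ connectedComponentIn K x) {n₀ : ℕ} {y₀ : ℂ} (hxw : x ∈ nd K n₀ y₀) :
    ∃ m ≥ n₀, x ∈ DF K (nd K n₀ y₀) F m := by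
  obtain ⟨n, hn⟩ := exists_nd_subset hK hf hx (W := Fᶜ) hF.isClosed.isOpen_compl
    (fun z hz hzF => hxF z hzF hz)
  refine ⟨max n₀ n, le_max_left _ _, ?_⟩
  rw [mem_DF_iff hx (le_max_left _ _)]
  refine ⟨hxw, ?_⟩
  rw [disjoint_left]
  intro z hz hzF
  exact hn (nd_anti (le_max_right _ _) hz) hzF

/-- pieces in the nodes of a late level are inside or off the set -/
lemma piece_DF {m N : ℕ} (hN : m ≤ N) {P : Set ℂ} {y : ℂ} (hP : P ⊆ nd K N y)
    (h : (P ∩ DF K w F m).Nonempty) : P ⊆ DF K w F m := by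
  obtain ⟨z, hzP, hz⟩ := h
  obtain ⟨x, hx, hd, hzx⟩ := mem_DF.1 hz
  intro v hv
  refine mem_DF.2 ⟨x, hx, hd, ?_⟩
  have h1 : nd K m y = nd K m x := (nd_eq (nd_anti hN (hP hzP))).symm.trans (nd_eq hzx)
  rw [← h1]
  exact nd_anti hN (hP hv)

/-- pieces which meet the set do not meet `F` -/
lemma piece_DF_disjoint {m N : ℕ} (hN : m ≤ N) {P : Set ℂ} {y : ℂ} (hP : P ⊆ nd K N y)
    (h : (P ∩ DF K w F m).Nonempty) : Disjoint P F := by
  obtain ⟨z, hzP, hz⟩ := h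
  obtain ⟨x, hx, hd, hzx⟩ := mem_DF.1 hz
  have h1 : nd K m y = nd K m x := (nd_eq (nd_anti hN (hP hzP))).symm.trans (nd_eq hzx)
  refine hd.mono_left ?_
  rw [← h1]
  exact fun v hv => nd_anti hN (hP hv)

/-- the sets are saturated -/
lemma DF_sat {m : ℕ} {x : ℂ} (hx : x ∈ DF K w F m) :
    connectedComponentIn K x ⊆ DF K w F m := by
  obtain ⟨y, hy, hd, hxy⟩ := mem_DF.1 hx
  intro v hv
  refine mem_DF.2 ⟨y, hy, hd, ?_⟩
  rw [← nd_eq hxy]
  exact connectedComponentIn_mono _ (subset_lev m) hv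

/-- the energy in the levels tends to zero -/
lemma tendsto_lint_lev (hK : IsCompact K) (hf : Full K) {g : ℂ → ℝ≥0∞} (hwm : MeasurableSet w)
    (hg : ∫⁻ z in w \ K, g z ≠ ∞) :
    Tendsto (fun m => ∫⁻ z in (w ∩ lev K m) \ K, g z) atTop (𝓝 0) := by
  have h1 := tendsto_measure_iInter_atTop (μ := (volume.restrict (w \ K)).withDensity g)
    (s := fun m => (w ∩ lev K m) \ K)
    (fun m => ((hwm.inter (isClosed_lev m).measurableSet).diff hK.measurableSet).nullMeasurableSet)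
    (fun m n hmn => sdiff_subset_sdiff_left (inter_subset_inter_right _ (lev_anti hmn)))
    ⟨0, by
      rw [withDensity_apply']
      refine ne_top_of_le_ne_top hg ?_
      rw [Measure.restrict_restrict ((hwm.inter (isClosed_lev 0).measurableSet).diff
        hK.measurableSet)]
      exact lintegral_mono_set inter_subset_right⟩
  have h2 : (⋂ m, (w ∩ lev K m) \ K) = ∅ := by
    rw [eq_empty_iff_forall_notMem]
    intro z hz
    rw [mem_iInter] at hz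
    obtain ⟨n, hn⟩ := exists_notMem_lev hK hf (hz 0).2
    exact hn (hz n).1.2
  rw [h2, measure_empty] at h1
  refine h1.congr fun m => ?_
  rw [Function.comp_apply, withDensity_apply', Measure.restrict_restrict ((hwm.inter (isClosed_lev m).measurableSet).diff
        hK.measurableSet)]
  congr 2
  ext z
  constructor
  · rintro ⟨⟨h3, h4⟩, -⟩
    exact ⟨h3, h4⟩
  · rintro ⟨h3, h4⟩
    exact ⟨⟨h3, h4⟩, h3.1, h4⟩

/-- the energy in `DF` tends to zero -/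
lemma exists_lint_DF (hK : IsCompact K) (hf : Full K) {g : ℂ → ℝ≥0∞} {n₀ : ℕ} {y₀ : ℂ}
    (hg : ∫⁻ z in nd K n₀ y₀ \ K, g z ≠ ∞) {ε : ℝ≥0∞} (hε : 0 < ε) :
    ∃ m₀ ≥ n₀, ∀ m ≥ m₀, ∫⁻ z in DF K (nd K n₀ y₀) F m \ K, g z ≤ ε := by
  have h1 := tendsto_lint_lev hK hf (isCompact_nd hK n₀ y₀).measurableSet hg
  obtain ⟨m₁, h2⟩ := eventually_atTop.1 (h1.eventually (gt_mem_nhds hε))
  refine ⟨max n₀ m₁, le_max_left _ _, fun m hm => ?_⟩
  refine (lintegral_mono_set ?_).trans (h2 m ((le_max_right _ _).trans hm)).le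
  exact sdiff_subset_sdiff_left (subset_inter (DF_sub ((le_max_left _ _).trans hm)) (DF_sub_lev m))

end Vale.Agent.P116.Cl.H779
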