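import Mathlib
import Vale.Agent.P116.H906.CMap
import Vale.Agent.P116.H906.LL
import Vale.Agent.P116.Slow.TPX

/-!
# The energy bound for one structure

`∫_{D - ∪S} ρ L |f'| + ∑ osc_P(u) osc_P(h ∘ f) ≤ L M (2 A + 2 B)`, where `A` is the norm of `ρ` in
`L²(D - K)` and `B ^ 2` bounds the sum of the squares of the oscillations of `u` over the pieces.
-/

open Set Filter Topology Metric MeasureTheory Bornology
open scoped ENNReal NNReal Real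

namespace Vale.Agent.P116.Cl.H779

open H906

/-- Cauchy-Schwarz for the smooth part -/
lemma cs_smooth {μ : Measure ℂ} {ρ σ : ℂ → ℝ} (hρ0 : ∀ z, 0 ≤ ρ z) (hσ0 : ∀ z, 0 ≤ σ z)
    (hρ : AEMeasurable ρ μ) (hσ : AEMeasurable σ μ) {A C : ℝ} (hA0 : 0 ≤ A) (hC0 : 0 ≤ C)
    (hA : ∫⁻ z, ENNReal.ofReal (ρ z ^ 2) ∂μ ≤ ENNReal.ofReal (A ^ 2))
    (hC : ∫⁻ z, ENNReal.ofReal (σ z ^ 2) ∂μ ≤ ENNReal.ofReal (C ^ 2)) :
    ∫⁻ z, ENNReal.ofReal (ρ z * σ z) ∂μ ≤ ENNReal.ofReal (A * C) := by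
  have h1 := ENNReal.lintegral_mul_le_Lp_mul_Lq μ (Real.HolderConjugate.two_two)
    hρ.ennreal_ofReal hσ.ennreal_ofReal
  have e1 : ∀ z, ENNReal.ofReal (ρ z) ^ (2:ℝ) = ENNReal.ofReal (ρ z ^ 2) := fun z => by
    rw [ENNReal.ofReal_pow (hρ0 z)]; norm_num
  have e2 : ∀ z, ENNReal.ofReal (σ z) ^ (2:ℝ) = ENNReal.ofReal (σ z ^ 2) := fun z => by
    rw [ENNReal.ofReal_pow (hσ0 z)]; norm_num
  simp only [Pi.mul_apply, e1, e2] at h1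
  calc ∫⁻ z, ENNReal.ofReal (ρ z * σ z) ∂μ = ∫⁻ z, ENNReal.ofReal (ρ z) * ENNReal.ofReal (σ z) ∂μ := by
        simp only [ENNReal.ofReal_mul (hρ0 _)]
    _ ≤ _ := h1
    _ ≤ ENNReal.ofReal (A ^ 2) ^ (1 / (2:ℝ)) * ENNReal.ofReal (C ^ 2) ^ (1 / (2:ℝ)) := by
        gcongr
    _ = ENNReal.ofReal (A * C) := by
        rw [ENNReal.ofReal_rpow_of_nonneg (by positivity) (by norm_num),
          ENNReal.ofReal_rpow_of_nonneg (by positivity) (by norm_num), ← Real.sqrt_eq_rpow,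
          ← Real.sqrt_eq_rpow, Real.sqrt_sq hA0, Real.sqrt_sq hC0, ← ENNReal.ofReal_mul hA0]

/-- the smooth part of one structure -/
theorem smooth_bound {S : Set (Set ℂ)} (hS : Adm S) {f : ℂ → ℂ} {c : Set ℂ → ℂ} {r : Set ℂ → ℝ}
    (h : CMap S f c r) {w D K : Set ℂ} {M : ℝ} (hM0 : 0 ≤ M) (hM : Tm S f c r w ⊆ closedBall 0 M)
    (hDw : D ⊆ w) (hD : MeasurableSet D) (hKS : K ∩ D ⊆ ⋃₀ S) {ρ : ℂ → ℝ}
    (hρ0 : ∀ z, 0 ≤ ρ z) (hρ : AEMeasurable ρ (volume.restrict (D \ K))) {A L : ℝ} (hA0 : 0 ≤ A)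
    (hL : 0 ≤ L)
    (hA : ∫⁻ z in D \ K, ENNReal.ofReal (ρ z ^ 2) ≤ ENNReal.ofReal (A ^ 2)) :
    ∫⁻ z in D \ ⋃₀ S, ENNReal.ofReal (ρ z * (L * ‖deriv f z‖)) ≤
      ENNReal.ofReal (A * (2 * L * M)) := by
  have hO : IsOpen (⋃₀ S)ᶜ := hS.isOpen_compl
  have hsub : D \ ⋃₀ S ⊆ D \ K := fun z hz => ⟨hz.1, fun hzK => hz.2 (hKS ⟨hzK, hz.1⟩)⟩
  have hm : MeasurableSet (D \ ⋃₀ S) := hD.diff hS.isCompact.measurableSet
  have harea : ∫⁻ z in D \ ⋃₀ S, ENNReal.ofReal (‖deriv f z‖ ^ 2) ≤ ENNReal.ofReal (π * M ^ 2) := by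
    rw [area_image hO h.nu.diff h.nu.inj hm (fun z hz => hz.2), ← Slow.volume_closedBall_real 0 hM0]
    refine measure_mono ?_
    rintro _ ⟨z, hz, rfl⟩
    exact hM (Or.inl ⟨z, ⟨hDw hz.1, hz.2⟩, rfl⟩)
  refine cs_smooth (A := A) (C := 2 * L * M) hρ0 (fun z => by positivity)
    (hρ.mono_measure (Measure.restrict_mono hsub le_rfl))
    ((measurable_deriv f).norm.const_mul L).aemeasurable hA0 (by positivity) ?_ ?_
  · exact (lintegral_mono_set hsub).trans hA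
  · calc ∫⁻ z in D \ ⋃₀ S, ENNReal.ofReal ((L * ‖deriv f z‖) ^ 2)
        = ∫⁻ z in D \ ⋃₀ S, ENNReal.ofReal (L ^ 2) * ENNReal.ofReal (‖deriv f z‖ ^ 2) := by
          simp only [mul_pow, ENNReal.ofReal_mul (sq_nonneg L)]
      _ = ENNReal.ofReal (L ^ 2) * ∫⁻ z in D \ ⋃₀ S, ENNReal.ofReal (‖deriv f z‖ ^ 2) :=
          lintegral_const_mul _ (((measurable_deriv f).norm.pow_const 2).ennreal_ofReal)
      _ ≤ ENNReal.ofReal (L ^ 2) * ENNReal.ofReal (π * M ^ 2) := by gcongr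
      _ = ENNReal.ofReal (L ^ 2 * (π * M ^ 2)) := (ENNReal.ofReal_mul (sq_nonneg L)).symm
      _ ≤ ENNReal.ofReal ((2 * L * M) ^ 2) := by
          refine ENNReal.ofReal_le_ofReal ?_
          have h4 : π ≤ 4 := Real.pi_le_four
          have h5 : 0 ≤ L ^ 2 * M ^ 2 := by positivity
          nlinarith

/-- the atomic part of one structure -/
theorem atom_bound {S : Set (Set ℂ)} {f : ℂ → ℂ} {c : Set ℂ → ℂ} {r : Set ℂ → ℝ}
    (h : CMap S f c r) {w : Set ℂ} {M : ℝ} (hM0 : 0 ≤ M) (hM : Tm S f c r w ⊆ closedBall 0 M)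
    {J : Finset (Set ℂ)} (hJ : ∀ P ∈ J, P ∈ S ∧ (w ∩ P).Nonempty) {o : Set ℂ → ℝ}
    {B L : ℝ} (hB0 : 0 ≤ B) (hL : 0 ≤ L) (hB : ∑ P ∈ J, o P ^ 2 ≤ B ^ 2) :
    ∑ P ∈ J, o P * (2 * L * r P) ≤ B * (2 * L * M) := by
  have hr : ∑ P ∈ J, r P ^ 2 ≤ M ^ 2 := by
    refine Slow.sum_sq_le (c := c) hM0 (fun P hP => (h.rpos P (hJ P hP).1).le) (fun P hP => ?_)
      (fun P hP Q hQ hne => h.disj P (hJ P hP).1 Q (hJ Q hQ).1 hne)
    refine Subset.trans (fun z hz => ?_) hM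
    exact Or.inr (mem_iUnion₂.2 ⟨P, hJ P hP, hz⟩)
  have h1 : (∑ P ∈ J, o P * (2 * L * r P)) ^ 2 ≤ (B * (2 * L * M)) ^ 2 := by
    calc (∑ P ∈ J, o P * (2 * L * r P)) ^ 2 ≤ (∑ P ∈ J, o P ^ 2) * ∑ P ∈ J, (2 * L * r P) ^ 2 :=
          Finset.sum_mul_sq_le_sq_mul_sq _ _ _
      _ = (∑ P ∈ J, o P ^ 2) * ((2 * L) ^ 2 * ∑ P ∈ J, r P ^ 2) := by
          congr 1
          rw [Finset.mul_sum]
          exact Finset.sum_congr rfl fun P _ => by ring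
      _ ≤ B ^ 2 * ((2 * L) ^ 2 * M ^ 2) := by
          have h0 : 0 ≤ ∑ P ∈ J, r P ^ 2 := Finset.sum_nonneg fun P _ => sq_nonneg _
          gcongr
      _ = (B * (2 * L * M)) ^ 2 := by ring
  exact le_of_sq_le_sq h1 (by positivity)

/-- **one structure**: the smooth part and the atomic part together -/
theorem one_bound {S : Set (Set ℂ)} (hS : Adm S) {f : ℂ → ℂ} {c : Set ℂ → ℂ} {r : Set ℂ → ℝ}
    (h : CMap S f c r) {w D K : Set ℂ} {M : ℝ} (hM0 : 0 ≤ M) (hM : Tm S f c r w ⊆ closedBall 0 M)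
    (hDw : D ⊆ w) (hD : MeasurableSet D) (hKS : K ∩ D ⊆ ⋃₀ S) {ρ : ℂ → ℝ}
    (hρ0 : ∀ z, 0 ≤ ρ z) (hρ : AEMeasurable ρ (volume.restrict (D \ K))) {A B L : ℝ} (hA0 : 0 ≤ A)
    (hB0 : 0 ≤ B) (hL : 0 ≤ L)
    (hA : ∫⁻ z in D \ K, ENNReal.ofReal (ρ z ^ 2) ≤ ENNReal.ofReal (A ^ 2))
    {J : Finset (Set ℂ)} (hJ : ∀ P ∈ J, P ∈ S ∧ (w ∩ P).Nonempty) {o e : Set ℂ → ℝ}
    (ho : ∀ P ∈ J, 0 ≤ o P) (he : ∀ P ∈ J, e P ≤ 2 * L * r P) (hB : ∑ P ∈ J, o P ^ 2 ≤ B ^ 2) :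
    (∫⁻ z in D \ ⋃₀ S, ENNReal.ofReal (ρ z * (L * ‖deriv f z‖))) +
      ∑ P ∈ J, ENNReal.ofReal (o P) * ENNReal.ofReal (e P) ≤
      ENNReal.ofReal (2 * L * M * (A + B)) := by
  have h1 := smooth_bound hS h hM0 hM hDw hD hKS hρ0 hρ hA0 hL hA
  have h2 := atom_bound h hM0 hM hJ hB0 hL hB
  have h3 : ∑ P ∈ J, ENNReal.ofReal (o P) * ENNReal.ofReal (e P) ≤
      ENNReal.ofReal (B * (2 * L * M)) := by
    calc ∑ P ∈ J, ENNReal.ofReal (o P) * ENNReal.ofReal (e P)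
        ≤ ∑ P ∈ J, ENNReal.ofReal (o P * (2 * L * r P)) := by
          refine Finset.sum_le_sum fun P hP => ?_
          rw [ENNReal.ofReal_mul (ho P hP)]
          gcongr
          exact he P hP
      _ = ENNReal.ofReal (∑ P ∈ J, o P * (2 * L * r P)) := by
          refine (ENNReal.ofReal_sum_of_nonneg fun P hP => ?_).symm
          have := (h.rpos P (hJ P hP).1).le
          have := ho P hP
          positivity
      _ ≤ _ := ENNReal.ofReal_le_ofReal h2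
  refine (add_le_add h1 h3).trans (le_of_eq ?_)
  rw [← ENNReal.ofReal_add (by positivity) (by positivity)]
  congr 1
  ring

end Vale.Agent.P116.Cl.H779
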