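import Mathlib
import Vale.Agent.P116.Cl.H967.Mix
import Vale.Agent.P116.Cl.H779.En
import Vale.Agent.P116.Slow.Def

/-!
# A Lipschitz function of a circle map is a `One`
-/

open Set Filter Topology Metric MeasureTheory Bornology
open scoped ENNReal NNReal Real

namespace Vale.Agent.P116.Cl.H779

open H906 H967

variable {K D : Set ℂ} {u : ℂ → ℝ} {S : Set (Set ℂ)}

/-- the lower end of the interval of `u` on the frontier of a piece -/
noncomputable def loF (u : ℂ → ℝ) (P : Set ℂ) : ℝ := sInf (u '' frontier P)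

/-- the upper end of the interval of `u` on the frontier of a piece -/
noncomputable def hiF (u : ℂ → ℝ) (P : Set ℂ) : ℝ := sSup (u '' frontier P)

lemma isCompact_img (hu : ContinuousOn u Kᶜ) {P : Set ℂ} (hP : IsCompact P)
    (hfr : Disjoint (frontier P) K) : IsCompact (u '' frontier P) := by
  refine (hP.of_isClosed_subset isClosed_frontier hP.isClosed.frontier_subset).image_of_continuousOn
    (hu.mono fun z hz => ?_)
  exact disjoint_left.1 hfr hz

lemma loF_le (hu : ContinuousOn u Kᶜ) {P : Set ℂ} (hP : IsCompact P)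
    (hfr : Disjoint (frontier P) K) {z : ℂ} (hz : z ∈ frontier P) : loF u P ≤ u z :=
  csInf_le (isCompact_img hu hP hfr).bddBelow (mem_image_of_mem u hz)

lemma le_hiF (hu : ContinuousOn u Kᶜ) {P : Set ℂ} (hP : IsCompact P)
    (hfr : Disjoint (frontier P) K) {z : ℂ} (hz : z ∈ frontier P) : u z ≤ hiF u P :=
  le_csSup (isCompact_img hu hP hfr).bddAbove (mem_image_of_mem u hz)

lemma frontier_ne {P : Set ℂ} (hP : IsCompact P) (hne : P.Nonempty) : (frontier P).Nonempty := by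
  rw [nonempty_iff_ne_empty]
  intro h
  rcases frontier_eq_empty_iff.1 h with h3 | h3
  · exact hne.ne_empty h3
  · rw [h3] at hP
    exact (NormedSpace.unbounded_univ ℝ ℂ) hP.isBounded

lemma loF_le_hiF (hu : ContinuousOn u Kᶜ) {P : Set ℂ} (hP : IsCompact P) (hne : P.Nonempty)
    (hfr : Disjoint (frontier P) K) : loF u P ≤ hiF u P := by
  obtain ⟨z, hz⟩ := frontier_ne hP hne
  exact (loF_le hu hP hfr hz).trans (le_hiF hu hP hfr hz)

/-- the length of the interval is at most the oscillation -/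
lemma hiF_sub_loF (hu : ContinuousOn u Kᶜ) {P : Set ℂ} (hP : IsCompact P) (hne : P.Nonempty)
    (hfr : Disjoint (frontier P) K) {o : ℝ}
    (ho : ∀ z ∈ frontier P, ∀ z' ∈ frontier P, |u z - u z'| ≤ o) : hiF u P - loF u P ≤ o := by
  have hc := isCompact_img hu hP hfr
  have hn : (u '' frontier P).Nonempty := (frontier_ne hP hne).image u
  obtain ⟨z, hz, hz'⟩ := hc.sInf_mem hn
  obtain ⟨y, hy, hy'⟩ := hc.sSup_mem hn
  have := ho y hy z hz
  rw [hiF, loF, ← hz', ← hy']
  exact (le_abs_self _).trans this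

/-- a Lipschitz function of the circle map -/
theorem one_of (hS : Adm S) {f : ℂ → ℂ} {c : Set ℂ → ℂ} {r : Set ℂ → ℝ} (h : CMap S f c r)
    (hu : ContinuousOn u Kᶜ) (hfr : ∀ P ∈ S, Disjoint (frontier P) K) (hcov : K ∩ D ⊆ ⋃₀ S)
    {H : ℂ → ℝ} {L : ℝ≥0} (hH : LipschitzWith L H) :
    One K D u S (fun z => H (f z)) (fun P => H (c P) - L * r P) (fun P => H (c P) + L * r P)
      (loF u) (hiF u) where
  fin := hS.fin
  cpt := hS.cpt
  disj := hS.disj
  cover := hcov
  fr := hfr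
  cont := hH.continuous.comp_continuousOn h.contOn
  near := by
    intro P hP η hη
    have hr := (h.rpos P hP).le
    set ε : ℝ := η / (L + 1) with hε
    have hε0 : 0 < ε := by positivity
    have hLε : L * ε < η := by
      rw [hε, mul_div_assoc']
      rw [div_lt_iff₀ (by positivity)]
      nlinarith [L.coe_nonneg]
    have h1 : ∀ x ∈ P, ∃ V, IsOpen V ∧ x ∈ V ∧ ∀ z ∈ V, z ∉ ⋃₀ S →
        infDist (f z) (closedBall (c P) (r P)) < ε := by
      intro x hx
      have h2 := (h.lim P hP x hx).eventually (gt_mem_nhds hε0)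
      rw [eventually_nhdsWithin_iff] at h2
      obtain ⟨V, hV, hVo, hxV⟩ := _root_.eventually_nhds_iff.1 h2
      exact ⟨V, hVo, hxV, fun z hz hzS => hV z hz hzS⟩
    choose! V hVo hxV hV using h1
    refine ⟨⋃ x ∈ P, V x, isOpen_biUnion hVo, fun x hx => mem_biUnion hx (hxV x hx), ?_⟩
    intro z hz hzS
    obtain ⟨x, hx, hzx⟩ := mem_iUnion₂.1 hz
    have h3 := hV x hx z hzx hzS
    obtain ⟨p, hp, hpz⟩ := (infDist_lt_iff ⟨c P, mem_closedBall_self hr⟩).1 h3
    have h4 : dist (f z) (c P) ≤ ε + r P := by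
      have := dist_triangle (f z) p (c P)
      rw [mem_closedBall] at hp
      linarith
    have h5 : |H (f z) - H (c P)| ≤ L * (ε + r P) := by
      rw [← Real.dist_eq]
      exact (hH.dist_le_mul _ _).trans (by gcongr)
    have h6 := abs_le.1 h5
    constructor
    · nlinarith [h6.1]
    · nlinarith [h6.2]
  le := by
    intro P hP
    have hr := (h.rpos P hP).le
    have : 0 ≤ L * r P := by positivity
    linarith
  lohi := by
    intro P hP z hz
    exact ⟨loF_le hu (hS.cpt P hP) (hfr P hP) hz, le_hiF hu (hS.cpt P hP) (hfr P hP) hz⟩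

open scoped Classical in
/-- **the integral of the counting function of one structure** -/
theorem lintegral_ee_le (hS : Adm S) {f : ℂ → ℂ} {c : Set ℂ → ℂ} {r : Set ℂ → ℝ}
    (h : CMap S f c r) {w : Set ℂ} {M : ℝ} (hM0 : 0 ≤ M) (hM : Tm S f c r w ⊆ closedBall 0 M)
    (hDw : D ⊆ w) (hD : MeasurableSet D) (hK : IsClosed K) (hcov : K ∩ D ⊆ ⋃₀ S)
    (hfr : ∀ P ∈ S, Disjoint (frontier P) K) {ρ : ℂ → ℝ} (hu : ContinuousOn u Kᶜ)
    (hug : UG Kᶜ u ρ) {H : ℂ → ℝ} {L : ℝ≥0} (hH : LipschitzWith L H) {A B : ℝ} (hA0 : 0 ≤ A)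
    (hB0 : 0 ≤ B) (hA : ∫⁻ z in D \ K, ENNReal.ofReal (ρ z ^ 2) ≤ ENNReal.ofReal (A ^ 2))
    (hB : ∑ P ∈ hS.fin.toFinset.filter (fun P => (D ∩ P).Nonempty), (hiF u P - loF u P) ^ 2 ≤ B ^ 2) :
    ∫⁻ s, ee D u hS.fin (fun z => H (f z)) (fun P => H (c P) - L * r P)
      (fun P => H (c P) + L * r P) (loF u) (hiF u) s ≤ ENNReal.ofReal (2 * L * M * (A + B)) := by
  have hone := one_of (D := D) hS h hu hfr hcov hH
  have hO : IsOpen (⋃₀ S)ᶜ := hS.isOpen_compl
  have hG : IsOpen ((⋃₀ S)ᶜ ∩ Kᶜ) := hO.inter hK.isOpen_compl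
  have hsub : D \ ⋃₀ S ⊆ (⋃₀ S)ᶜ ∩ Kᶜ := fun z hz => ⟨hz.2, fun hzK => hz.2 (hcov ⟨hzK, hz.1⟩)⟩
  have hu' : UG ((⋃₀ S)ᶜ ∩ Kᶜ) u ρ :=
    ⟨hug.cont.mono inter_subset_right, fun z hz => hug.nonneg z hz.2,
      fun x y hxy => hug.le x y (hxy.trans inter_subset_right)⟩
  have hx := UG.of_comp hO h.nu.diff hH
  have hx' : UG ((⋃₀ S)ᶜ ∩ Kᶜ) (fun z => H (f z)) (fun z => L * ‖deriv f z‖) :=
    ⟨hx.cont.mono inter_subset_left, fun z hz => hx.nonneg z hz.1,
      fun x y hxy => hx.le x y (hxy.trans inter_subset_left)⟩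
  have hdom : Dom u (fun z => H (f z)) (fun z => ENNReal.ofReal (ρ z * (L * ‖deriv f z‖)))
      (D \ ⋃₀ S) := (Dom.of_ug hG hu' hx').mono hsub
  refine (lintegral_ee hone hD hdom).trans ?_
  -- replace `ρ` by its positive part
  set ρ' : ℂ → ℝ := fun z => max (ρ z) 0 with hρ'
  have e1 : ∫⁻ z in D \ ⋃₀ S, ENNReal.ofReal (ρ z * (L * ‖deriv f z‖)) ≤
      ∫⁻ z in D \ ⋃₀ S, ENNReal.ofReal (ρ' z * (L * ‖deriv f z‖)) := by
    refine lintegral_mono fun z => ENNReal.ofReal_le_ofReal ?_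
    gcongr
    exact le_max_left _ _
  have e2 : ∫⁻ z in D \ K, ENNReal.ofReal (ρ' z ^ 2) ≤ ENNReal.ofReal (A ^ 2) := by
    refine le_trans (le_of_eq ?_) hA
    refine setLIntegral_congr_fun (hD.diff hK.measurableSet) fun z hz => ?_
    simp only [hρ']
    rw [max_eq_left (hug.nonneg z hz.2)]
  have e3 : AEMeasurable ρ' (volume.restrict (D \ K)) := by
    have h1 : AEMeasurable ρ (volume.restrict (D \ K)) :=
      ((hug.cont.mono (fun z hz => hz.2 : D \ K ⊆ Kᶜ)).aemeasurable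
        (hD.diff hK.measurableSet))
    exact h1.max aemeasurable_const
  have h2 := one_bound hS h hM0 hM hDw hD hcov (fun z => le_max_right _ _) e3 hA0 hB0 L.coe_nonneg e2
    (J := hS.fin.toFinset.filter (fun P => (D ∩ P).Nonempty)) (fun P hP => by
      rw [Finset.mem_filter, Set.Finite.mem_toFinset] at hP
      exact ⟨hP.1, hP.2.mono (inter_subset_inter_left _ hDw)⟩)
    (o := fun P => hiF u P - loF u P) (e := fun P => (H (c P) + L * r P) - (H (c P) - L * r P))
    (fun P hP => by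
      rw [Finset.mem_filter, Set.Finite.mem_toFinset] at hP
      exact sub_nonneg.2 (loF_le_hiF hu (hS.cpt P hP.1) (hS.nontriv P hP.1).nonempty (hfr P hP.1)))
    (fun P hP => by linarith) hB
  refine le_trans ?_ h2
  gcongr ?_ + ?_
  exact Finset.sum_le_sum fun P _ => (mul_comm _ _).le

end Vale.Agent.P116.Cl.H779
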