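import Mathlib
import Vale.Agent.P116.KF.Spec
import Vale.Agent.P116.Cl.H779.One
import Vale.Agent.P116.Cl.H779.DF

/-!
# P116, full Koebe, block [45]: the mixtures of `P45` as `Mixt`s
-/

open Set Filter Topology Metric MeasureTheory Bornology
open scoped ENNReal NNReal Real

namespace Vale.Agent.P116.Cl.H779

open H906 H967 KB

lemma ug_of_hon {K w : Set ℂ} {u ρ : ℂ → ℝ} (h : Hon K w u ρ) : H967.UG Kᶜ u ρ :=
  ⟨h.rc, fun z hz => h.rnn z hz, fun x y hxy M hM => h.maj x y hxy M hM⟩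

/-- every end which does not meet the closed set `F` is in one of the sets -/
lemma exists_mem_DF' {K F : Set ℂ} (hK : IsCompact K) (hf : Full K) (hF : IsClosed F) {x : ℂ}
    (hx : x ∈ K) (hxF : Disjoint (connectedComponentIn K x) F) {n₀ : ℕ} {y₀ : ℂ}
    (hxw : x ∈ nd K n₀ y₀) :
    ∃ m ≥ n₀, ∀ m' ≥ m, x ∈ DF K (nd K n₀ y₀) F m' := by
  obtain ⟨n, hn⟩ := exists_nd_subset hK hf hx (W := Fᶜ) hF.isOpen_compl
    (fun z hz hzF => disjoint_left.1 hxF hz hzF)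
  refine ⟨max n₀ n, le_max_left _ _, fun m' hm' => ?_⟩
  rw [mem_DF_iff hx ((le_max_left _ _).trans hm')]
  refine ⟨hxw, ?_⟩
  rw [disjoint_left]
  intro z hz hzF
  exact hn (nd_anti ((le_max_right _ _).trans hm') hz) hzF

/-- connected subsets of a level are in nodes -/
lemma exists_nd_of_lev {K P : Set ℂ} (hK : IsCompact K) {N : ℕ} (hP : IsConnected P)
    (hPl : P ⊆ lev K N) : ∃ x ∈ K, P ⊆ nd K N x := by
  obtain ⟨z, hz⟩ := hP.nonempty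
  obtain ⟨x, hx, hzx⟩ := exists_node hK (hPl hz)
  refine ⟨x, hx, ?_⟩
  rw [← nd_eq hzx]
  exact hP.isPreconnected.subset_connectedComponentIn hz hPl

section

variable {K D : Set ℂ} {u ρ : ℂ → ℝ} {L : ℝ≥0} {N : ℕ → ℕ} {wt : ∀ j, Fin (N j) → ℝ}
  {S : ∀ j, Fin (N j) → Str} {h : ∀ j, Fin (N j) → ℂ → ℝ}

/-- the mixture -/
noncomputable def mx (hu : ContinuousOn u Kᶜ) (h1 : ∀ j i, 0 ≤ wt j i)
    (h3 : ∀ j i, LipschitzWith L (h j i)) (h4 : ∀ j i, G.NS K (lev K 0) (S j i).1)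
    (h5 : ∀ j i, K ⊆ ⋃₀ (S j i).1) (D : Set ℂ) (j : ℕ) : Mixt K D u (Σ j, Fin (N j)) where
  I := Finset.univ.map (Function.Embedding.sigmaMk j)
  lam := fun p => wt p.1 p.2
  S := fun p => (S p.1 p.2).1
  x := fun p z => h p.1 p.2 (kF fk (S p.1 p.2) z)
  al := fun p P => h p.1 p.2 (kc fk (S p.1 p.2) P) - L * kr fk (S p.1 p.2) P
  be := fun p P => h p.1 p.2 (kc fk (S p.1 p.2) P) + L * kr fk (S p.1 p.2) P
  lo := fun _ => loF u
  hi := fun _ => hiF u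
  lam_nn := fun p _ => h1 p.1 p.2
  one := fun p _ => one_of (S p.1 p.2).2 (kmap fk (S p.1 p.2)) hu
    (fun P hP => ((h4 p.1 p.2).pc P hP).fr) (inter_subset_left.trans (h5 p.1 p.2)) (h3 p.1 p.2)

variable (hu : ContinuousOn u Kᶜ) (h1 : ∀ j i, 0 ≤ wt j i)
    (h3 : ∀ j i, LipschitzWith L (h j i)) (h4 : ∀ j i, G.NS K (lev K 0) (S j i).1)
    (h5 : ∀ j i, K ⊆ ⋃₀ (S j i).1)

lemma mx_g (j : ℕ) (z : ℂ) :
    (mx hu h1 h3 h4 h5 D j).g z = ∑ i, wt j i * h j i (kF fk (S j i) z) := by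
  simp only [Mixt.g, mx, Finset.sum_map]
  rfl

lemma mx_fine (hK : IsCompact K) (h6 : ∀ m, ∀ᶠ j in atTop, ∀ i, ∀ P ∈ (S j i).1, P ⊆ lev K m) (M : ℕ) :
    ∀ᶠ j in atTop, ∀ i ∈ (mx hu h1 h3 h4 h5 D j).I, ∀ P ∈ (mx hu h1 h3 h4 h5 D j).S i,
      ∃ x ∈ K, P ⊆ nd K M x := by
  filter_upwards [h6 M] with j hj
  intro i hi P hP
  simp only [mx, Finset.mem_map, Finset.mem_univ, true_and, Function.Embedding.sigmaMk_apply] at hi hP
  obtain ⟨i, rfl⟩ := hi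
  exact exists_nd_of_lev hK ((h4 j i).pc P hP).conn (hj i P hP)

open scoped Classical in
lemma mx_e (hug : H967.UG Kᶜ u ρ) (h2 : ∀ j, ∑ i, wt j i = 1) {w : Set ℂ} {R : ℝ} (hR : 0 < R)
    (hwR : w ⊆ ball 0 R) (hlR : lev K 0 ⊆ closedBall 0 R) (hDw : D ⊆ w) (hD : MeasurableSet D)
    (hK : IsClosed K) {A B : ℝ} (hA0 : 0 ≤ A) (hB0 : 0 ≤ B)
    (hA : ∫⁻ z in D \ K, ENNReal.ofReal (ρ z ^ 2) ≤ ENNReal.ofReal (A ^ 2)) {j : ℕ}
    (hB : ∀ i, ∑ P ∈ (S j i).2.fin.toFinset.filter (fun P => (D ∩ P).Nonempty),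
      (hiF u P - loF u P) ^ 2 ≤ B ^ 2) :
    ∫⁻ s, (mx hu h1 h3 h4 h5 D j).e s ≤ ENNReal.ofReal (2 * L * (5 * R) * (A + B)) := by
  rw [Mixt.lintegral_e]
  have key : ∀ i : {i // i ∈ (mx hu h1 h3 h4 h5 D j).I},
      ∫⁻ s, ee D u ((mx hu h1 h3 h4 h5 D j).one i i.2).fin ((mx hu h1 h3 h4 h5 D j).x i)
        ((mx hu h1 h3 h4 h5 D j).al i) ((mx hu h1 h3 h4 h5 D j).be i)
        ((mx hu h1 h3 h4 h5 D j).lo i) ((mx hu h1 h3 h4 h5 D j).hi i) s ≤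
      ENNReal.ofReal (2 * L * (5 * R) * (A + B)) := by
    rintro ⟨p, hp⟩
    simp only [mx, Finset.mem_map, Finset.mem_univ, true_and, Function.Embedding.sigmaMk_apply] at hp
    obtain ⟨i, rfl⟩ := hp
    have hMb := CMap.Tm_bound (S j i).2 (kmap fk (S j i)) hR
      (sUnion_subset fun P hP => ((h4 j i).sub P hP).trans hlR)
    exact lintegral_ee_le (S j i).2 (kmap fk (S j i)) (by positivity)
      ((Tm_mono hwR).trans hMb) hDw hD hK (inter_subset_left.trans (h5 j i))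
      (fun P hP => ((h4 j i).pc P hP).fr) hu hug (h3 j i) hA0 hB0 hA (hB i)
  calc ∑ i ∈ (mx hu h1 h3 h4 h5 D j).I.attach, ENNReal.ofReal ((mx hu h1 h3 h4 h5 D j).lam i) *
        ∫⁻ s, ee D u ((mx hu h1 h3 h4 h5 D j).one i i.2).fin ((mx hu h1 h3 h4 h5 D j).x i)
        ((mx hu h1 h3 h4 h5 D j).al i) ((mx hu h1 h3 h4 h5 D j).be i)
        ((mx hu h1 h3 h4 h5 D j).lo i) ((mx hu h1 h3 h4 h5 D j).hi i) s
      ≤ ∑ i ∈ (mx hu h1 h3 h4 h5 D j).I.attach, ENNReal.ofReal ((mx hu h1 h3 h4 h5 D j).lam i) *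
        ENNReal.ofReal (2 * L * (5 * R) * (A + B)) := by
        gcongr with i _
        exact key i
    _ = ENNReal.ofReal (2 * L * (5 * R) * (A + B)) := by
        rw [← Finset.sum_mul, Finset.sum_attach _ (fun i =>
          ENNReal.ofReal ((mx hu h1 h3 h4 h5 D j).lam i))]
        simp only [mx, Finset.sum_map]
        change (∑ i, ENNReal.ofReal (wt j i)) * _ = _
        rw [← ENNReal.ofReal_sum_of_nonneg (fun i _ => h1 j i), h2, ENNReal.ofReal_one, one_mul]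

end

end Vale.Agent.P116.Cl.H779
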