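import Mathlib
import Vale.Agent.P116.Cl.H779.Mx
import Vale.Agent.P116.Cl.H766.Br
import Vale.Agent.P116.Cl.Fr905
import Vale.Agent.P116.KF.H597.Fub45

/-!
# P116, full Koebe, block [45]: the area of the dust in one set `DF`
-/

open Set Filter Topology Metric MeasureTheory Bornology
open scoped ENNReal NNReal Real

namespace Vale.Agent.P116.Cl.H779

open H906 H967 KB H766 KF.H597

lemma ug905_of_hon {K w : Set ℂ} {u ρ : ℂ → ℝ} (h : Hon K w u ρ) : Cl.UG Kᶜ u ρ :=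
  ⟨h.rc, fun z hz => h.rnn z hz, fun x y hxy M hM => h.maj x y hxy M hM⟩

section

variable {K : Set ℂ} {u ρ g σ : ℂ → ℝ} {L : ℝ≥0} {N : ℕ → ℕ} {wt : ∀ j, Fin (N j) → ℝ}
  {S : ∀ j, Fin (N j) → Str} {h : ∀ j, Fin (N j) → ℂ → ℝ}

open scoped Classical in
/-- **the area of the dust in `DF`** -/
theorem area_DF (hK : IsCompact K) (hf : Full K) {n : ℕ} {x₀ : ℂ}
    (hu : Hon K (nd K n x₀) u ρ) (hsm : KF.SMon K (nd K n x₀) u) (hg : Hon K (nd K n x₀) g σ)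
    (h1 : ∀ j i, 0 ≤ wt j i) (h2 : ∀ j, ∑ i, wt j i = 1)
    (h3 : ∀ j i, LipschitzWith L (h j i)) (h4 : ∀ j i, G.NS K (lev K 0) (S j i).1)
    (h5 : ∀ j i, K ⊆ ⋃₀ (S j i).1)
    (h6 : ∀ m, ∀ᶠ j in atTop, ∀ i, ∀ P ∈ (S j i).1, P ⊆ lev K m)
    (hlim : ∀ z ∉ K, Tendsto (fun j => ∑ i, wt j i * h j i (kF fk (S j i) z)) atTop (𝓝 (g z)))
    {R : ℝ} (hR : 0 < R) (hlR : lev K 0 ⊆ ball 0 R) {F : Set ℂ} {m : ℕ} (hnm : n ≤ m) {A B : ℝ}
    (hA0 : 0 ≤ A) (hB0 : 0 ≤ B)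
    (hA : ∫⁻ z in DF K (nd K n x₀) F m \ K, ENNReal.ofReal (ρ z ^ 2) ≤ ENNReal.ofReal (A ^ 2))
    (hB : ∀ᶠ j in atTop, ∀ i, ∑ P ∈ (S j i).2.fin.toFinset.filter
      (fun P => (DF K (nd K n x₀) F m ∩ P).Nonempty), (hiF u P - loF u P) ^ 2 ≤ B ^ 2)
    {Bs : Set (ℝ × ℝ)} (hBs : MeasurableSet Bs)
    (hBs' : ∀ s s' : ℝ, ∀ z ∈ K ∩ DF K (nd K n x₀) F m, z ∈ Lv K u s → z ∈ Lv K g s' →
      ¬ osc0 K g z → (s, s') ∈ Bs) :
    volume (ZZ K u g (DF K (nd K n x₀) F m) \ Bs) ≤ ENNReal.ofReal (2 * L * (5 * R) * (A + B)) := by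
  set w := nd K n x₀ with hw
  set D := DF K w F m with hD
  have hwc : IsCompact w := isCompact_nd hK n x₀
  have hDc : IsCompact D := isCompact_DF hK m
  have hDw : D ⊆ w := DF_sub hnm
  have hfr : Disjoint (frontier D) K := frontier_DF_disjoint hK m
  have hwR : w ⊆ ball 0 R := (nd_subset n x₀).trans ((lev_anti (Nat.zero_le n)).trans hlR)
  set M := fun j => mx (L := L) (u := u) hu.cont h1 h3 h4 h5 D j with hM
  set Gam : ℝ → ℝ≥0∞ := fun s => liminf (fun j => (M j).e s) atTop with hGam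
  have hint : ∫⁻ s, Gam s ≤ ENNReal.ofReal (2 * L * (5 * R) * (A + B)) := by
    refine (lintegral_liminf_e M).trans ?_
    refine liminf_le_of_le (by isBoundedDefault) ?_
    intro b hb
    obtain ⟨j, hj, hj'⟩ := (hb.and hB).exists
    exact hj.trans (mx_e hu.cont h1 h3 h4 h5 (ug_of_hon hu) h2 hR hwR
      (hlR.trans ball_subset_closedBall) hDw hDc.measurableSet hK.isClosed hA0 hB0 hA hj')
  refine le_trans ?_ hint
  have hFrc : IsCompact (frontier D) := hDc.of_isClosed_subset isClosed_frontier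
    hDc.isClosed.frontier_subset
  have hFK : frontier D ⊆ Kᶜ := fun z hz hzK => disjoint_left.1 hfr hz hzK
  refine fubD' hK.isClosed hu.cont hg.cont (hK.inter hDc) hBs hFrc hFK
    (volume_image_pair hK.isClosed.isOpen_compl (ug905_of_hon hu) (ug905_of_hon hg) hFK
      (null_frontier_DF hK m)) ?_
  refine Eventually.of_forall fun s => ?_
  by_cases hs : Gam s = ∞
  · rw [hs]; simp
  have hcore := sec_SMon (g := g) hK hf hu.cont hwc (SMon_of hsm) hDc.isClosed hDw hfr hs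
    (hA_of_core (s := s) (a := Gam s) hK hu.cont hwc hDc.isClosed hDw hfr
      (fun J C c1 c2 c3 c4 c5 c6 p q c7 c8 => core45 hK hf M
        (fun N₀ => mx_fine hu.cont h1 h3 h4 h5 hK h6 N₀)
        (fun z _ hzK => by
          refine (hlim z hzK).congr fun j => ?_
          rw [hM, mx_g]) J C c1 c2 c3 c4 c5 c6 p q c7 c8))
  have e1 : Lv K u s ∩ frontier D = frontier D ∩ {z | u z = s} := by
    ext z
    constructor
    · rintro ⟨hz1, hz2⟩
      exact ⟨hz2, (mem_Lv_of_notMem (hFK hz2)).1 hz1⟩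
    · rintro ⟨hz1, hz2⟩
      exact ⟨(mem_Lv_of_notMem (hFK hz1)).2 hz2, hz1⟩
  rw [e1] at hcore
  refine (measure_mono ?_).trans hcore
  rintro s' ⟨⟨z, hz, hz1, hz2⟩, hnB⟩
  refine ⟨z, hz, hz1, hz2, ?_⟩
  by_contra h0
  exact hnB (hBs' s s' z hz hz1 hz2 h0)

end

end Vale.Agent.P116.Cl.H779
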