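import Mathlib
import Vale.Agent.P116.Cl.H779.Sect
import Vale.Agent.P116.Cl.H766.J4
import Vale.Agent.P116.Cl.Exc905

/-!
# P116, full Koebe, block [45]: `P45`
-/

open Set Filter Topology Metric MeasureTheory Bornology
open scoped ENNReal NNReal Real

namespace Vale.Agent.P116.Cl.H779

open H906 H967 KB H766 KF.H597

lemma tsum_off {α : Type*} {f : α → ℝ} (hf : Summable f) (s : Finset α)
    [∀ c, Decidable (c ∈ s)] :
    ∑' c, (if c ∈ s then 0 else f c) = ∑' c, f c - ∑ c ∈ s, f c := by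
  have h9 : HasSum (fun c => if c ∈ s then f c else 0) (∑ c ∈ s, f c) := by
    have : HasSum (fun c => if c ∈ s then f c else 0) (∑ c ∈ s, if c ∈ s then f c else 0) :=
      hasSum_sum_of_ne_finset_zero (fun c hc => if_neg hc)
    rwa [Finset.sum_congr rfl (fun c hc => if_pos hc)] at this
  have h10 := hf.hasSum.sub h9
  rw [← h10.tsum_eq]
  refine tsum_congr fun c => ?_
  split_ifs <;> simp

open scoped Classical in
/-- finitely many ends with small rest -/
lemma exists_ends {K w : Set ℂ} {u ρ : ℂ → ℝ} (hu : Hon K w u ρ) {ε : ℝ} (hε : 0 < ε) :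
    ∃ s : Finset (comps K), (∀ c ∈ s, (c : Set ℂ) ⊆ w) ∧
      ∑' c : comps K, (if c ∈ s then 0 else oc K w u c) ≤ ε := by
  have hsum : Summable fun c : comps K => oc K w u c := hu.sum'
  have h1 := hsum.hasSum
  have h2 : ∀ᶠ s : Finset (comps K) in atTop, ∑' c : comps K, oc K w u c - ε <
      ∑ c ∈ s, oc K w u c := h1.eventually (lt_mem_nhds (by linarith))
  obtain ⟨s, hs⟩ := h2.exists
  refine ⟨s.filter (fun c : comps K => (c : Set ℂ) ⊆ w), fun c hc => (Finset.mem_filter.1 hc).2, ?_⟩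
  have e : ∑' c : comps K, (if c ∈ s.filter (fun c : comps K => (c : Set ℂ) ⊆ w) then 0 else oc K w u c) =
      ∑' c : comps K, (if c ∈ s then 0 else oc K w u c) := by
    refine tsum_congr fun c => ?_
    by_cases hc : c ∈ s
    · by_cases hcw : (c : Set ℂ) ⊆ w
      · rw [if_pos hc, if_pos (Finset.mem_filter.2 ⟨hc, hcw⟩)]
      · have h' : c ∉ s.filter (fun c : comps K => (c : Set ℂ) ⊆ w) := fun h =>
          hcw (Finset.mem_filter.1 h).2
        rw [if_pos hc, if_neg h', oc, if_neg hcw]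
    · have h' : c ∉ s.filter (fun c : comps K => (c : Set ℂ) ⊆ w) := fun h =>
        hc (Finset.mem_filter.1 h).1
      rw [if_neg hc, if_neg h']
  rw [e, tsum_off hsum]
  linarith

/-- **[45]** -/
theorem p45 : KF.P45 := by
  intro K hK hf n x₀ hx₀ u ρ hu hsm g σ hg L N wt S h h1 h2 h3 h4 h5 h6 h7 hlim
  classical
  set w := nd K n x₀ with hw
  have hwc : IsCompact w := isCompact_nd hK n x₀
  have hfrw : Disjoint (frontier w) K := frontier_nd_disjoint n x₀
  have hug := ug_of_hon hu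
  have hub : Bd0 K u := hu.bdd
  have hgb : Bd0 K g := hg.bdd
  -- the radius
  obtain ⟨R₀, hR₀, hlR₀⟩ := lev_bdd hK 0
  set R : ℝ := R₀ + 1 with hRdef
  have hR : 0 < R := by positivity
  have hlR : lev K 0 ⊆ ball 0 R := hlR₀.trans (closedBall_subset_ball (by linarith))
  -- small numbers
  set ε : ℕ → ℝ := fun k => 1 / ((k : ℝ) + 1) with hε
  have hεp : ∀ k, 0 < ε k := fun k => by simp only [hε]; positivity
  have hεt : Tendsto ε atTop (𝓝 0) := tendsto_one_div_add_atTop_nhds_zero_nat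
  -- finitely many ends
  choose s hsw hst using fun k => exists_ends hu (pow_pos (hεp k) 2)
  set F₀ : ℕ → Finset (Set ℂ) := fun k => (s k).image (fun c : comps K => (c : Set ℂ)) with hF₀
  set F : ℕ → Set ℂ := fun k => ⋃₀ (F₀ k : Set (Set ℂ)) with hF
  have hF₀c : ∀ k, ∀ c ∈ F₀ k, c ∈ comps K ∧ c ⊆ w := by
    intro k c hc
    obtain ⟨c', hc', rfl⟩ := Finset.mem_image.1 hc
    exact ⟨c'.2, hsw k c' hc'⟩
  have hFcl : ∀ k, IsClosed (F k) := by
    intro k
    refine ((Finset.finite_toSet (F₀ k)).isCompact_sUnion ?_).isClosed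
    intro c hc
    obtain ⟨⟨y, hy, rfl⟩, -⟩ := hF₀c k c hc
    exact isCompact_comp hK y
  -- the ends in `F`
  have hFmem : ∀ k, ∀ z (hz : z ∈ K), (z ∈ F k ↔ cc hz ∈ s k) := by
    intro k z hz
    constructor
    · rintro ⟨c, hc, hzc⟩
      obtain ⟨c', hc', rfl⟩ := Finset.mem_image.1 (Finset.mem_coe.1 hc)
      have : cc hz = c' := by
        apply Subtype.ext
        obtain ⟨y, hy, hyc⟩ := c'.2
        change connectedComponentIn K z = (c' : Set ℂ)
        rw [← hyc] at hzc ⊢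
        exact (connectedComponentIn_eq hzc).symm
      rw [this]
      exact hc'
    · intro hc
      exact ⟨connectedComponentIn K z, Finset.mem_coe.2 (Finset.mem_image.2 ⟨cc hz, hc, rfl⟩),
        mem_connectedComponentIn hz⟩
  have hFdisj : ∀ k, ∀ z (hz : z ∈ K), z ∉ F k → Disjoint (connectedComponentIn K z) (F k) := by
    intro k z hz hzF
    rw [disjoint_left]
    intro y hy hyF
    have hyK : y ∈ K := connectedComponentIn_subset _ _ hy
    refine hzF ((hFmem k z hz).2 ?_)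
    have h8 := (hFmem k y hyK).1 hyF
    have : cc hz = cc hyK := Subtype.ext (connectedComponentIn_eq hy)
    rw [this]
    exact h8
  -- the levels
  have hmex : ∀ k, ∃ m₀ ≥ n, ∀ m ≥ m₀, ∫⁻ z in DF K w (F k) m \ K, ENNReal.ofReal (ρ z ^ 2) ≤
      ENNReal.ofReal (ε k ^ 2) := fun k =>
    exists_lint_DF hK hf hu.en.ne (ENNReal.ofReal_pos.2 (pow_pos (hεp k) 2))
  choose m₀ hm₀n hm₀ using hmex
  set Dn : ℕ → ℕ → Set ℂ := fun k m => K ∩ DF K w (F k) (m + m₀ k) with hDn
  set Bn : ℕ → Set (ℝ × ℝ) := fun k => Bs K w u g (s k) with hBn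
  -- the atomic part
  have hat : ∀ k m, ∀ᶠ j in atTop, ∀ i, ∑ P ∈ (S j i).2.fin.toFinset.filter
      (fun P => (DF K w (F k) (m + m₀ k) ∩ P).Nonempty), (hiF u P - loF u P) ^ 2 ≤ (2 * ε k) ^ 2 := by
    intro k m
    obtain ⟨N₀, hN₀⟩ := Exc.excess hK hf hw hu (F₀ k) (hF₀c k)
    filter_upwards [h6 (max N₀ (m + m₀ k)), h7 (ε k ^ 2) (pow_pos (hεp k) 2)] with j hj1 hj2 i
    have h8 := hN₀ (max N₀ (m + m₀ k)) (le_max_left _ _) (S j i).1 (h4 j i) (hj1 i)
      (fun x hx _ => h5 j i hx) (ε k ^ 2) (hj2 i)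
      ((S j i).2.fin.toFinset.filter (fun P => (DF K w (F k) (m + m₀ k) ∩ P).Nonempty)) (by
        intro P hP
        rw [Finset.mem_filter, Set.Finite.mem_toFinset] at hP
        obtain ⟨y, hy, hPy⟩ := exists_nd_of_lev hK ((h4 j i).pc P hP.1).conn (hj1 i P hP.1)
        have hne : (P ∩ DF K w (F k) (m + m₀ k)).Nonempty := by
          rw [inter_comm]; exact hP.2
        refine ⟨hP.1, ?_, piece_DF_disjoint (le_max_right _ _) hPy hne⟩
        exact (piece_DF (le_max_right _ _) hPy hne).trans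
          (DF_sub ((hm₀n k).trans (Nat.le_add_left _ _))))
    have h9 : ∑' c : comps K, (if (c : Set ℂ) ∈ F₀ k then 0 else oc K w u c) ≤ ε k ^ 2 := by
      refine le_trans (le_of_eq (tsum_congr fun c => ?_)) (hst k)
      have : ((c : Set ℂ) ∈ F₀ k ↔ c ∈ s k) := by
        simp only [hF₀, Finset.mem_image]
        constructor
        · rintro ⟨c', hc', hcc⟩
          rwa [Subtype.ext hcc] at hc'
        · exact fun hc => ⟨c, hc, rfl⟩
      by_cases hc : c ∈ s k
      · rw [if_pos hc, if_pos (this.2 hc)]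
      · rw [if_neg hc, if_neg (fun h' => hc (this.1 h'))]
    have h10 : ∑ P ∈ (S j i).2.fin.toFinset.filter
        (fun P => (DF K w (F k) (m + m₀ k) ∩ P).Nonempty), (hiF u P - loF u P) ^ 2 ≤
        ∑ P ∈ (S j i).2.fin.toFinset.filter
        (fun P => (DF K w (F k) (m + m₀ k) ∩ P).Nonempty), oscS K u P ^ 2 := by
      refine Finset.sum_le_sum fun P hP => ?_
      rw [Finset.mem_filter, Set.Finite.mem_toFinset] at hP
      have hPc := (h4 j i).pc P hP.1
      refine pow_le_pow_left₀ (sub_nonneg.2 (loF_le_hiF hu.cont hPc.cpt hPc.nonempty hPc.fr)) ?_ 2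
      exact Exc.frontier_osc_le hPc (Exc.Hon.bd hu ((h4 j i).sub P hP.1))
    have := sq_nonneg (ε k)
    calc _ ≤ _ := h10
      _ ≤ _ := h8
      _ ≤ ε k ^ 2 + ε k ^ 2 := by gcongr
      _ ≤ (2 * ε k) ^ 2 := by nlinarith
  -- the conclusion
  have hmain := null45 (K := K) (u := u) (g := g) (w := w)
    (NB := fun z => ¬ (0 < oscC K u (connectedComponentIn K z) ∧
      0 < oscC K g (connectedComponentIn K z))) (Fn := F) (Dn := Dn) (Bn := Bn)
    (e := fun k => ENNReal.ofReal (2 * L * (5 * R) * (ε k + 2 * ε k)))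
    (β := fun k => ENNReal.ofReal (ε k * Real.sqrt (Eo K w g)))
    (by
      rintro k z ⟨⟨hz, hzw⟩, hzF⟩
      obtain ⟨m, hm, hmz⟩ := exists_mem_DF' hK hf (hFcl k) hz (hFdisj k z hz hzF) hzw
      exact mem_iUnion.2 ⟨m, hz, hmz _ (Nat.le_add_right _ _)⟩)
    (fun k m m' hmm => DF_mono ((hm₀n k).trans (Nat.le_add_left _ _)) (by omega))
    (by
      intro k m
      refine (measure_mono (sdiff_subset_sdiff_left (ZZ_mono inter_subset_right))).trans
        (area_DF hK hf hu hsm hg h1 h2 h3 h4 h5 h6 (fun z hz => hlim.tendsto_at hz) hR hlR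
          ((hm₀n k).trans (Nat.le_add_left _ _)) (hεp k).le (by have := hεp k; positivity)
          (hm₀ k _ (Nat.le_add_left _ _)) (hat k m) (measurableSet_Bs hfrw hg _) ?_)
      intro t t' z hz hz1 hz2 hz0
      have hzw : z ∈ w := ((mem_DF_iff hz.1 ((hm₀n k).trans (Nat.le_add_left _ _))).1 hz.2).1
      refine ⟨z, hz.1, hzw, ?_, ?_, mem_EI.2 hz1, mem_EI.2 hz2⟩
      · intro hc
        have h8 : z ∈ F k := (hFmem k z hz.1).2 hc
        have h9 := ((mem_DF_iff hz.1 ((hm₀n k).trans (Nat.le_add_left _ _))).1 hz.2).2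
        exact disjoint_left.1 h9 (mem_nd hz.1 _) h8
      · refine lt_of_le_of_ne (oscC_nonneg hK hgb hz.1) fun h8 => hz0 ?_
        exact (osc0_iff hK hgb hz.1).2 h8.symm)
    (fun k => volume_Bs_le hK hfrw hu hg (s k) (hεp k).le (hst k))
    (by
      have h8 : Tendsto (fun k => 2 * L * (5 * R) * (ε k + 2 * ε k)) atTop (𝓝 0) := by
        have := (hεt.add (hεt.const_mul 2)).const_mul (2 * L * (5 * R))
        simpa using this
      have := (ENNReal.continuous_ofReal.tendsto 0).comp h8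
      simpa [Function.comp_def] using this)
    (by
      have h8 : Tendsto (fun k => ε k * Real.sqrt (Eo K w g)) atTop (𝓝 0) := by
        have := hεt.mul_const (Real.sqrt (Eo K w g))
        simpa using this
      have := (ENNReal.continuous_ofReal.tendsto 0).comp h8
      simpa [Function.comp_def] using this)
    (by
      intro k
      refine measure_mono_null ?_ (null_degenerate (w := w) hub hgb (s k : Set (comps K))
        (Finset.countable_toSet _))
      rintro p ⟨z, ⟨⟨hz, hzw⟩, hzF⟩, hNB, hz1, hz2⟩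
      exact ⟨z, hz, hzw, ⟨cc hz, Finset.mem_coe.2 ((hFmem k z hz).1 hzF), rfl⟩, hNB, mem_EI.2 hz1,
        mem_EI.2 hz2⟩)
  refine measure_mono_null ?_ hmain
  rintro p ⟨z, hz, hzw, hNB, hz1, hz2⟩
  exact ⟨z, ⟨hz, hzw⟩, hNB, mem_EI.1 hz1, mem_EI.1 hz2⟩

end Vale.Agent.P116.Cl.H779
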